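import Vale.Agent.P363.H979.PolyDense
import Mathlib.MeasureTheory.Constructions.HaarToSphere
import Mathlib.Analysis.SpecialFunctions.Gaussian.GaussianIntegral
import Mathlib.Analysis.InnerProductSpace.Projection.Submodule

/-!
Density of `polynomial * exp (-k r)` in the weighted space `L²(ℝ³, dx / r)`.
-/

namespace Vale.Agent.P363.H979

open MeasureTheory MvPolynomial
open scoped ENNReal

/-- Three-dimensional Euclidean space. -/
abbrev E3 : Type := EuclideanSpace ℝ (Fin 3)

/-- `exp (-k r) / r` is integrable on `ℝ³`. -/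
theorem integrable_exp_div {k : ℝ} (hk : 0 < k) :
    Integrable (fun x : E3 => Real.exp (-(k * ‖x‖)) / ‖x‖) := by
  have h := (integrable_fun_norm_addHaar (volume : Measure E3)
    (f := fun r : ℝ => Real.exp (-(k * r)) / r)).2
  apply h
  have hd : Module.finrank ℝ E3 = 3 := by simp
  rw [hd]
  have h1 := integrableOn_rpow_mul_exp_neg_mul_rpow (s := 1) (p := 1) (b := k)
    (by norm_num) (by norm_num) hk
  refine h1.congr_fun (fun y hy => ?_) measurableSet_Ioi
  have hy0 : (y : ℝ) ≠ 0 := ne_of_gt hy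
  simp only [Real.rpow_one, smul_eq_mul]
  have : -k * y = -(k * y) := by ring
  rw [this]
  field_simp

/-- `p² exp (-k r) / r` is integrable on `ℝ³`. -/
theorem integrable_pev_exp_div {k : ℝ} (hk : 0 < k) (p : MvPolynomial (Fin 3) ℝ) :
    Integrable (fun x : E3 => |pev p x| * Real.exp (-(k * ‖x‖)) / ‖x‖) := by
  obtain ⟨C, hC0, hC⟩ := abs_pev_le p (k / 2) (by positivity)
  refine Integrable.mono' ((integrable_exp_div (half_pos hk)).const_mul C) ?_ ?_
  · have hc := continuous_pev p
    have h1 : Measurable (fun x : E3 => |pev p x| * Real.exp (-(k * ‖x‖)) / ‖x‖) := by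
      have := hc.measurable
      fun_prop
    exact h1.aestronglyMeasurable
  · refine Filter.Eventually.of_forall fun x => ?_
    rw [Real.norm_of_nonneg (by positivity), ← mul_div_assoc]
    apply div_le_div_of_nonneg_right _ (norm_nonneg _)
    calc |pev p x| * Real.exp (-(k * ‖x‖))
        ≤ (C * Real.exp (k / 2 * ‖x‖)) * Real.exp (-(k * ‖x‖)) :=
          mul_le_mul_of_nonneg_right (hC x) (Real.exp_pos _).le
      _ = C * Real.exp (-(k / 2 * ‖x‖)) := by
          rw [mul_assoc, ← Real.exp_add]; ring_nf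

/-- The weight `1 / r` as an extended nonnegative function. -/
noncomputable def rinv (x : E3) : ℝ≥0∞ := ENNReal.ofReal (‖x‖⁻¹)

theorem measurable_rinv : Measurable rinv := by
  unfold rinv; fun_prop

/-- The measure `dx / r`. -/
noncomputable def muR : Measure E3 := volume.withDensity rinv

theorem rinv_toReal (x : E3) : (rinv x).toReal = ‖x‖⁻¹ := by
  unfold rinv
  exact ENNReal.toReal_ofReal (by positivity)

theorem rinv_lt_top (x : E3) : rinv x < ∞ := ENNReal.ofReal_lt_top

theorem integral_muR (g : E3 → ℝ) : ∫ x, g x ∂muR = ∫ x, g x / ‖x‖ := by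
  unfold muR
  rw [integral_withDensity_eq_integral_toReal_smul measurable_rinv
    (Filter.Eventually.of_forall rinv_lt_top)]
  congr 1
  funext x
  rw [rinv_toReal, smul_eq_mul, mul_comm, div_eq_mul_inv]

theorem integrable_muR (g : E3 → ℝ) :
    Integrable g muR ↔ Integrable (fun x => g x / ‖x‖) volume := by
  unfold muR
  rw [integrable_withDensity_iff measurable_rinv (Filter.Eventually.of_forall rinv_lt_top)]
  simp_rw [rinv_toReal, div_eq_mul_inv]

theorem muR_ac : muR ≪ volume := withDensity_absolutelyContinuous _ _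

theorem ac_muR : (volume : Measure E3) ≪ muR := by
  unfold muR
  apply withDensity_absolutelyContinuous' measurable_rinv.aemeasurable
  have h0 : ∀ᵐ x : E3, x ≠ 0 := by
    have : (volume : Measure E3) {0} = 0 := by simp
    exact measure_eq_zero_iff_ae_notMem.1 this
  filter_upwards [h0] with x hx
  unfold rinv
  rw [Ne, ENNReal.ofReal_eq_zero, not_le]
  exact inv_pos.2 (norm_pos_iff.2 hx)

theorem memLp_muR {f : E3 → ℝ} (hfm : AEStronglyMeasurable f volume)
    (hf : Integrable (fun x => f x ^ 2 / ‖x‖)) : MemLp f 2 muR := by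
  rw [memLp_two_iff_integrable_sq (hfm.mono_ac muR_ac)]
  exact (integrable_muR _).2 hf

/-- The functions `p exp (-k r)`. -/
noncomputable def pexp (k : ℝ) (p : MvPolynomial (Fin 3) ℝ) (x : E3) : ℝ :=
  pev p x * Real.exp (-(k * ‖x‖))

theorem pexp_add (k : ℝ) (p q : MvPolynomial (Fin 3) ℝ) (x : E3) :
    pexp k (p + q) x = pexp k p x + pexp k q x := by
  simp [pexp, pev, add_mul]

theorem pexp_smul (k c : ℝ) (p : MvPolynomial (Fin 3) ℝ) (x : E3) :
    pexp k (c • p) x = c * pexp k p x := by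
  simp [pexp, pev, mul_assoc]

theorem continuous_pexp (k : ℝ) (p : MvPolynomial (Fin 3) ℝ) : Continuous (pexp k p) := by
  have := continuous_pev p
  unfold pexp
  fun_prop

theorem memLp_pexp {k : ℝ} (hk : 0 < k) (p : MvPolynomial (Fin 3) ℝ) :
    MemLp (pexp k p) 2 muR := by
  refine memLp_muR (continuous_pexp k p).aestronglyMeasurable ?_
  have h1 := integrable_pev_exp_div (k := 2 * k) (by positivity) (p ^ 2)
  refine h1.congr (Filter.Eventually.of_forall fun x => ?_)
  simp only [pexp]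
  rw [pev_pow, abs_of_nonneg (by positivity), mul_pow, ← Real.exp_nat_mul]
  congr 3
  push_cast
  ring

/-- A function in `L²(dx / r)` orthogonal to all `p exp (-k r)` vanishes. -/
theorem ae_eq_zero_of_orth {k : ℝ} (hk : 0 < k) {f : E3 → ℝ}
    (hfm : AEStronglyMeasurable f volume) (hf : Integrable (fun x => f x ^ 2 / ‖x‖))
    (h : ∀ p : MvPolynomial (Fin 3) ℝ, ∫ x, f x * pexp k p x / ‖x‖ = 0) :
    f =ᵐ[volume] 0 := by
  have hF : Integrable (fun x : E3 => (f x * Real.exp (-(k * ‖x‖)) / ‖x‖) *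
      Real.exp (k / 2 * ‖x‖)) := by
    refine Integrable.mono' ((hf.add (integrable_exp_div hk)).const_mul (1 / 2)) ?_ ?_
    · have h1 : Measurable (fun x : E3 => Real.exp (-(k * ‖x‖)) / ‖x‖ *
        Real.exp (k / 2 * ‖x‖)) := by fun_prop
      refine (hfm.mul h1.aestronglyMeasurable).congr (Filter.Eventually.of_forall fun x => ?_)
      simp only [Pi.mul_apply]
      ring
    · refine Filter.Eventually.of_forall fun x => ?_
      have h2 : f x * Real.exp (-(k * ‖x‖)) / ‖x‖ * Real.exp (k / 2 * ‖x‖) =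
          (f x * Real.exp (-(k / 2 * ‖x‖))) / ‖x‖ := by
        have : Real.exp (-(k / 2 * ‖x‖)) = Real.exp (-(k * ‖x‖)) * Real.exp (k / 2 * ‖x‖) := by
          rw [← Real.exp_add]; ring_nf
        rw [this]; ring
      rw [h2, norm_div, norm_norm, Pi.add_apply, ← add_div, ← mul_div_assoc]
      apply div_le_div_of_nonneg_right _ (norm_nonneg _)
      have h3 : Real.exp (-(k * ‖x‖)) = Real.exp (-(k / 2 * ‖x‖)) ^ 2 := by
        rw [← Real.exp_nat_mul]; congr 1; push_cast; ring
      rw [h3, norm_mul, Real.norm_eq_abs, Real.norm_eq_abs, Real.abs_exp]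
      have h4 := sq_abs (f x)
      nlinarith [sq_nonneg (|f x| - Real.exp (-(k / 2 * ‖x‖)))]
  have hz := ae_eq_zero_of_forall_poly (half_pos hk) hF (fun p => by
    rw [← h p]
    congr 1
    funext x
    unfold pexp
    ring)
  have h0 : ∀ᵐ x : E3, x ≠ 0 := by
    have : (volume : Measure E3) {0} = 0 := by simp
    exact measure_eq_zero_iff_ae_notMem.1 this
  filter_upwards [hz, h0] with x hx hx0
  have hn : ‖x‖ ≠ 0 := norm_ne_zero_iff.2 hx0
  simp only [Pi.zero_apply] at hx ⊢
  rw [div_eq_zero_iff, or_iff_left hn, mul_eq_zero, or_iff_left (Real.exp_pos _).ne'] at hx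
  exact hx

/-- The linear map `p ↦ p exp (-k r)` into `L²(dx / r)`. -/
noncomputable def pexpLp {k : ℝ} (hk : 0 < k) :
    MvPolynomial (Fin 3) ℝ →ₗ[ℝ] Lp ℝ 2 muR where
  toFun p := (memLp_pexp hk p).toLp _
  map_add' p q := by
    rw [← MemLp.toLp_add]
    apply MemLp.toLp_congr
    exact Filter.Eventually.of_forall fun x => pexp_add k p q x
  map_smul' c p := by
    rw [RingHom.id_apply, ← MemLp.toLp_const_smul]
    apply MemLp.toLp_congr
    exact Filter.Eventually.of_forall fun x => pexp_smul k c p x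

theorem range_pexpLp_dense {k : ℝ} (hk : 0 < k) :
    (LinearMap.range (pexpLp hk)).topologicalClosure = ⊤ := by
  rw [Submodule.topologicalClosure_eq_top_iff, Submodule.eq_bot_iff]
  intro g hg
  rw [Submodule.mem_orthogonal'] at hg
  have hgm : AEStronglyMeasurable (g : E3 → ℝ) volume :=
    (Lp.aestronglyMeasurable g).mono_ac ac_muR
  have hg2 : Integrable (fun x => (g : E3 → ℝ) x ^ 2 / ‖x‖) := by
    rw [← integrable_muR]
    exact (Lp.memLp g).integrable_sq
  have hz : (g : E3 → ℝ) =ᵐ[volume] 0 := by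
    refine ae_eq_zero_of_orth hk hgm hg2 fun p => ?_
    have h1 := hg (pexpLp hk p) (LinearMap.mem_range_self _ _)
    rw [L2.inner_def] at h1
    rw [← h1, ← integral_muR (fun x => g x * pexp k p x)]
    apply integral_congr_ae
    filter_upwards [(memLp_pexp hk p).coeFn_toLp] with x hx
    have : (pexpLp hk p : E3 → ℝ) x = pexp k p x := hx
    rw [this]
    simp [mul_comm]
  rw [Lp.eq_zero_iff_ae_eq_zero]
  exact muR_ac.ae_eq hz

/-- **Density**: any `f` with `∫ f² / r < ∞` can be approximated by `p exp (-k r)` in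
`L²(dx / r)`. -/
theorem exists_poly_approx {k : ℝ} (hk : 0 < k) {f : E3 → ℝ}
    (hfm : AEStronglyMeasurable f volume) (hf : Integrable (fun x => f x ^ 2 / ‖x‖))
    {ε : ℝ} (hε : 0 < ε) :
    ∃ p : MvPolynomial (Fin 3) ℝ, ∫ x, (f x - pexp k p x) ^ 2 / ‖x‖ ≤ ε := by
  have hfL := memLp_muR hfm hf
  have hmem : hfL.toLp f ∈ (LinearMap.range (pexpLp hk)).topologicalClosure := by
    rw [range_pexpLp_dense]; trivial
  have hmem2 : hfL.toLp f ∈ closure ((LinearMap.range (pexpLp hk) : Submodule ℝ (Lp ℝ 2 muR)) :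
      Set (Lp ℝ 2 muR)) := hmem
  rw [Metric.mem_closure_iff] at hmem2
  obtain ⟨s, ⟨p, rfl⟩, hs⟩ := hmem2 (Real.sqrt ε) (Real.sqrt_pos.2 hε)
  refine ⟨p, ?_⟩
  rw [dist_eq_norm] at hs
  have h1 : ‖hfL.toLp f - pexpLp hk p‖ ^ 2 ≤ ε := by
    have := pow_le_pow_left₀ (norm_nonneg _) hs.le 2
    rwa [Real.sq_sqrt hε.le] at this
  rw [← real_inner_self_eq_norm_sq, L2.inner_def] at h1
  refine le_of_eq_of_le ?_ h1
  rw [← integral_muR (fun x => (f x - pexp k p x) ^ 2)]
  apply integral_congr_ae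
  filter_upwards [(memLp_pexp hk p).coeFn_toLp, hfL.coeFn_toLp,
    Lp.coeFn_sub (hfL.toLp f) (pexpLp hk p)] with x hx1 hx2 hx3
  have h4 : (pexpLp hk p : E3 → ℝ) x = pexp k p x := hx1
  rw [hx3, Pi.sub_apply, hx2, h4]
  simp [sq]

end Vale.Agent.P363.H979
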