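import Mathlib.MeasureTheory.Measure.CharacteristicFunction.Basic
import Mathlib.Analysis.InnerProductSpace.PiL2
import Mathlib.Topology.Algebra.MvPolynomial
import Mathlib.Algebra.MvPolynomial.Funext
import Mathlib.MeasureTheory.Integral.DominatedConvergence
import Mathlib.MeasureTheory.Function.L2Space

/-!
Block B4 of the P363 development: a function `F` on a Euclidean space with exponential decay
(`F * exp (k ‖x‖)` integrable, `k > 0`) which is orthogonal to every polynomial vanishes almost
everywhere.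
-/

namespace Vale.Agent.P363.H979

open MeasureTheory MvPolynomial Complex
open scoped ENNReal

variable {ι : Type*} [Fintype ι]

/-- Evaluation of a real polynomial at a point of Euclidean space. -/
noncomputable def pev (p : MvPolynomial ι ℝ) (x : EuclideanSpace ℝ ι) : ℝ :=
  MvPolynomial.eval (fun i => x i) p

omit [Fintype ι] in
theorem continuous_pev (p : MvPolynomial ι ℝ) : Continuous (pev (ι := ι) p) := by
  unfold pev
  have h := MvPolynomial.continuous_eval p
  have h2 : Continuous (fun x : EuclideanSpace ℝ ι => fun i => x i) := by fun_prop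
  exact h.comp h2

omit [Fintype ι] in
@[simp] theorem pev_mul (p q : MvPolynomial ι ℝ) (x : EuclideanSpace ℝ ι) :
    pev (p * q) x = pev p x * pev q x := by simp [pev]

omit [Fintype ι] in
@[simp] theorem pev_pow (p : MvPolynomial ι ℝ) (n : ℕ) (x : EuclideanSpace ℝ ι) :
    pev (p ^ n) x = pev p x ^ n := by simp [pev]

omit [Fintype ι] in
@[simp] theorem pev_one (x : EuclideanSpace ℝ ι) :
    pev (1 : MvPolynomial ι ℝ) x = 1 := by simp [pev]

theorem abs_coord_le (x : EuclideanSpace ℝ ι) (i : ι) : |x i| ≤ ‖x‖ := by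
  have := EuclideanSpace.norm_eq x
  rw [this]
  rw [← Real.sqrt_sq_eq_abs]
  apply Real.sqrt_le_sqrt
  have h := Finset.single_le_sum (f := fun j => ‖x j‖ ^ 2) (fun j _ => by positivity)
    (Finset.mem_univ i)
  simpa using h

/-- Polynomials are dominated by any exponential. -/
theorem abs_pev_le (p : MvPolynomial ι ℝ) : ∀ δ : ℝ, 0 < δ →
    ∃ C : ℝ, 0 ≤ C ∧ ∀ x : EuclideanSpace ℝ ι, |pev p x| ≤ C * Real.exp (δ * ‖x‖) := by
  induction p using MvPolynomial.induction_on with
  | C a =>
    intro δ hδ
    refine ⟨|a|, abs_nonneg _, fun x => ?_⟩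
    have h1 : (1 : ℝ) ≤ Real.exp (δ * ‖x‖) := Real.one_le_exp (by positivity)
    have : pev (C a) x = a := by simp [pev]
    rw [this]
    exact le_mul_of_one_le_right (abs_nonneg _) h1
  | add p q hp hq =>
    intro δ hδ
    obtain ⟨C₁, h₁, hC₁⟩ := hp δ hδ
    obtain ⟨C₂, h₂, hC₂⟩ := hq δ hδ
    refine ⟨C₁ + C₂, by positivity, fun x => ?_⟩
    have : pev (p + q) x = pev p x + pev q x := by simp [pev]
    rw [this, add_mul]
    exact (abs_add_le _ _).trans (add_le_add (hC₁ x) (hC₂ x))
  | mul_X p i hp =>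
    intro δ hδ
    obtain ⟨C₁, h₁, hC₁⟩ := hp (δ / 2) (by positivity)
    refine ⟨C₁ * (2 / δ), by positivity, fun x => ?_⟩
    have : pev (p * X i) x = pev p x * x i := by simp [pev]
    rw [this, abs_mul]
    have h3 : |x i| ≤ 2 / δ * Real.exp (δ / 2 * ‖x‖) := by
      have h4 := Real.add_one_le_exp (δ / 2 * ‖x‖)
      have h5 := abs_coord_le x i
      have h6 : ‖x‖ = 2 / δ * (δ / 2 * ‖x‖) := by field_simp
      calc |x i| ≤ ‖x‖ := h5
        _ = 2 / δ * (δ / 2 * ‖x‖) := h6
        _ ≤ 2 / δ * Real.exp (δ / 2 * ‖x‖) := by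
            apply mul_le_mul_of_nonneg_left _ (by positivity)
            linarith
    calc |pev p x| * |x i| ≤ (C₁ * Real.exp (δ / 2 * ‖x‖)) * (2 / δ * Real.exp (δ / 2 * ‖x‖)) :=
          mul_le_mul (hC₁ x) h3 (abs_nonneg _) (by positivity)
      _ = C₁ * (2 / δ) * (Real.exp (δ / 2 * ‖x‖) * Real.exp (δ / 2 * ‖x‖)) := by ring
      _ = C₁ * (2 / δ) * Real.exp (δ * ‖x‖) := by
          rw [← Real.exp_add]; ring_nf

/-- The linear polynomial of a vector. -/
noncomputable def linPoly (ξ : EuclideanSpace ℝ ι) : MvPolynomial ι ℝ :=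
  ∑ i, C (ξ i) * X i

theorem pev_linPoly (ξ x : EuclideanSpace ℝ ι) : pev (linPoly ξ) x = inner ℝ x ξ := by
  simp [pev, linPoly, PiLp.inner_apply]

theorem integrable_pev_mul {k : ℝ} {G : EuclideanSpace ℝ ι → ℂ}
    (hG : Integrable (fun x => (Real.exp (k * ‖x‖) : ℂ) * G x)) {δ : ℝ} (hδ : δ < k)
    (p : MvPolynomial ι ℝ) :
    Integrable (fun x => (|pev p x| * Real.exp (δ * ‖x‖)) * ‖G x‖) := by
  obtain ⟨C, hC0, hC⟩ := abs_pev_le p (k - δ) (by linarith)
  have hGm : AEStronglyMeasurable G volume := by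
    have h1 : G = fun x => (Real.exp (-(k * ‖x‖)) : ℂ) * ((Real.exp (k * ‖x‖) : ℂ) * G x) := by
      funext x
      rw [← mul_assoc, ← Complex.ofReal_mul, ← Real.exp_add]
      simp
    rw [h1]
    refine AEStronglyMeasurable.mul ?_ hG.1
    exact (by fun_prop : Continuous fun x : EuclideanSpace ℝ ι =>
      (Real.exp (-(k * ‖x‖)) : ℂ)).aestronglyMeasurable
  refine Integrable.mono' (hG.norm.const_mul C) ?_ ?_
  · refine AEStronglyMeasurable.mul ?_ hGm.norm
    have hc := continuous_pev p
    exact (by fun_prop : Continuous fun x : EuclideanSpace ℝ ι =>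
      |pev p x| * Real.exp (δ * ‖x‖)).aestronglyMeasurable
  · refine Filter.Eventually.of_forall fun x => ?_
    rw [Real.norm_of_nonneg (by positivity), norm_mul, Complex.norm_real,
      Real.norm_of_nonneg (Real.exp_pos _).le, ← mul_assoc]
    apply mul_le_mul_of_nonneg_right _ (norm_nonneg _)
    calc |pev p x| * Real.exp (δ * ‖x‖)
        ≤ (C * Real.exp ((k - δ) * ‖x‖)) * Real.exp (δ * ‖x‖) :=
          mul_le_mul_of_nonneg_right (hC x) (Real.exp_pos _).le
      _ = C * Real.exp (k * ‖x‖) := by
          rw [mul_assoc, ← Real.exp_add]; ring_nf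

theorem aesm_of_exp {k : ℝ} {G : EuclideanSpace ℝ ι → ℂ}
    (hG : Integrable (fun x => (Real.exp (k * ‖x‖) : ℂ) * G x)) :
    AEStronglyMeasurable G volume := by
  have h1 : G = fun x => (Real.exp (-(k * ‖x‖)) : ℂ) * ((Real.exp (k * ‖x‖) : ℂ) * G x) := by
    funext x
    rw [← mul_assoc, ← Complex.ofReal_mul, ← Real.exp_add]
    simp
  rw [h1]
  refine AEStronglyMeasurable.mul ?_ hG.1
  exact (by fun_prop : Continuous fun x : EuclideanSpace ℝ ι =>
    (Real.exp (-(k * ‖x‖)) : ℂ)).aestronglyMeasurable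

/-- One step: multiplication by a character of small frequency preserves the orthogonality to
all polynomials. -/
theorem step {k : ℝ} {G : EuclideanSpace ℝ ι → ℂ}
    (hG : Integrable (fun x => (Real.exp (k * ‖x‖) : ℂ) * G x))
    (hp : ∀ p : MvPolynomial ι ℝ, ∫ x, (pev p x : ℂ) * G x = 0)
    (ξ : EuclideanSpace ℝ ι) (hξ : ‖ξ‖ < k) (p : MvPolynomial ι ℝ) :
    ∫ x, (pev p x : ℂ) * (cexp (inner ℝ x ξ * I) * G x) = 0 := by
  have hGm := aesm_of_exp hG
  have key : HasSum (fun n : ℕ => ∫ x, ((n.factorial : ℂ)⁻¹ * I ^ n) *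
      ((pev (p * linPoly ξ ^ n) x : ℂ) * G x))
      (∫ x, (pev p x : ℂ) * (cexp (inner ℝ x ξ * I) * G x)) := by
    refine hasSum_integral_of_dominated_convergence
      (fun n x => (n.factorial : ℝ)⁻¹ * |pev (linPoly ξ) x| ^ n * (|pev p x| * ‖G x‖)) ?_ ?_ ?_ ?_ ?_
    · intro n
      have hc := continuous_pev (p * linPoly ξ ^ n)
      refine AEStronglyMeasurable.mul aestronglyMeasurable_const ?_
      exact (by fun_prop : Continuous fun x : EuclideanSpace ℝ ι =>
        ((pev (p * linPoly ξ ^ n) x : ℝ) : ℂ)).aestronglyMeasurable.mul hGm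
    · intro n
      refine Filter.Eventually.of_forall fun x => ?_
      simp only [norm_mul, norm_inv, norm_pow, norm_I, one_pow, mul_one, pev_mul, pev_pow,
        Complex.norm_real, Real.norm_eq_abs, Complex.norm_natCast]
      apply le_of_eq; ring
    · refine Filter.Eventually.of_forall fun x => ?_
      apply Summable.mul_right
      have := Real.summable_pow_div_factorial |pev (linPoly ξ) x|
      refine this.congr fun n => ?_
      rw [div_eq_inv_mul]
    · have h1 := integrable_pev_mul hG hξ p
      refine Integrable.mono' h1 ?_ ?_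
      · have hc : ∀ x : EuclideanSpace ℝ ι, (∑' n : ℕ, (n.factorial : ℝ)⁻¹ *
            |pev (linPoly ξ) x| ^ n * (|pev p x| * ‖G x‖)) =
            Real.exp |pev (linPoly ξ) x| * (|pev p x| * ‖G x‖) := by
          intro x
          rw [tsum_mul_right]
          congr 1
          rw [Real.exp_eq_exp_ℝ, NormedSpace.exp_eq_tsum_div]
          congr 1; funext n
          rw [div_eq_inv_mul]
        simp_rw [hc]
        have hc1 := continuous_pev (linPoly ξ)
        have hc2 := continuous_pev p
        refine AEStronglyMeasurable.mul ?_ (AEStronglyMeasurable.mul ?_ hGm.norm)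
        · exact (by fun_prop : Continuous fun x : EuclideanSpace ℝ ι =>
            Real.exp |pev (linPoly ξ) x|).aestronglyMeasurable
        · exact (by fun_prop : Continuous fun x : EuclideanSpace ℝ ι =>
            |pev p x|).aestronglyMeasurable
      · refine Filter.Eventually.of_forall fun x => ?_
        have hc : (∑' n : ℕ, (n.factorial : ℝ)⁻¹ *
            |pev (linPoly ξ) x| ^ n * (|pev p x| * ‖G x‖)) =
            Real.exp |pev (linPoly ξ) x| * (|pev p x| * ‖G x‖) := by
          rw [tsum_mul_right]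
          congr 1
          rw [Real.exp_eq_exp_ℝ, NormedSpace.exp_eq_tsum_div]
          congr 1; funext n
          rw [div_eq_inv_mul]
        rw [hc, Real.norm_of_nonneg (by positivity)]
        have h2 : |pev (linPoly ξ) x| ≤ ‖ξ‖ * ‖x‖ := by
          rw [pev_linPoly]
          calc |inner ℝ x ξ| ≤ ‖x‖ * ‖ξ‖ := abs_real_inner_le_norm _ _
            _ = ‖ξ‖ * ‖x‖ := mul_comm _ _
        have h3 : Real.exp |pev (linPoly ξ) x| ≤ Real.exp (‖ξ‖ * ‖x‖) := Real.exp_le_exp.2 h2
        calc Real.exp |pev (linPoly ξ) x| * (|pev p x| * ‖G x‖)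
            ≤ Real.exp (‖ξ‖ * ‖x‖) * (|pev p x| * ‖G x‖) :=
              mul_le_mul_of_nonneg_right h3 (by positivity)
          _ = |pev p x| * Real.exp (‖ξ‖ * ‖x‖) * ‖G x‖ := by ring
    · refine Filter.Eventually.of_forall fun x => ?_
      have h1 : HasSum (fun n : ℕ => (inner ℝ x ξ * I) ^ n / (n.factorial : ℂ))
          (cexp (inner ℝ x ξ * I)) := by
        rw [Complex.exp_eq_exp_ℂ]
        exact NormedSpace.expSeries_div_hasSum_exp _
      have h2 := (h1.mul_right (G x)).mul_left (pev p x : ℂ)
      refine h2.congr_fun (fun n => ?_)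
      rw [pev_mul, pev_pow, pev_linPoly]
      push_cast
      rw [mul_pow]
      ring
  have hz : ∀ n : ℕ, ∫ x, ((n.factorial : ℂ)⁻¹ * I ^ n) *
      ((pev (p * linPoly ξ ^ n) x : ℂ) * G x) = 0 := by
    intro n
    rw [integral_const_mul, hp, mul_zero]
  simp_rw [hz] at key
  exact key.unique hasSum_zero

theorem iter {k : ℝ} {G : EuclideanSpace ℝ ι → ℂ}
    (hG : Integrable (fun x => (Real.exp (k * ‖x‖) : ℂ) * G x))
    (hp : ∀ p : MvPolynomial ι ℝ, ∫ x, (pev p x : ℂ) * G x = 0)
    (ξ : EuclideanSpace ℝ ι) (hξ : ‖ξ‖ < k) (m : ℕ) :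
    ∀ p : MvPolynomial ι ℝ,
      ∫ x, (pev p x : ℂ) * (cexp (inner ℝ x ξ * I) ^ m * G x) = 0 := by
  induction m with
  | zero => intro p; simpa using hp p
  | succ m ih =>
    intro p
    have h1 : Integrable (fun x => (Real.exp (k * ‖x‖) : ℂ) *
        (cexp (inner ℝ x ξ * I) ^ m * G x)) := by
      refine Integrable.mono hG ?_ ?_
      · have hGm := aesm_of_exp hG
        refine AEStronglyMeasurable.mul ?_ (AEStronglyMeasurable.mul ?_ hGm)
        · exact (by fun_prop : Continuous fun x : EuclideanSpace ℝ ι =>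
            (Real.exp (k * ‖x‖) : ℂ)).aestronglyMeasurable
        · exact (by fun_prop : Continuous fun x : EuclideanSpace ℝ ι =>
            cexp (inner ℝ x ξ * I) ^ m).aestronglyMeasurable
      · refine Filter.Eventually.of_forall fun x => ?_
        rw [norm_mul, norm_mul, norm_pow, Complex.norm_exp_ofReal_mul_I, norm_mul]
        simp
    have h2 := step h1 ih ξ hξ p
    rw [← h2]
    congr 1
    funext x
    rw [pow_succ]
    ring

/-- **Density of polynomials with exponential weight** (complex version): if `G` has exponential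
decay in the integrated sense and is orthogonal to all real polynomials then its Fourier transform
vanishes. -/
theorem integral_char_eq_zero {k : ℝ} (hk : 0 < k) {G : EuclideanSpace ℝ ι → ℂ}
    (hG : Integrable (fun x => (Real.exp (k * ‖x‖) : ℂ) * G x))
    (hp : ∀ p : MvPolynomial ι ℝ, ∫ x, (pev p x : ℂ) * G x = 0)
    (η : EuclideanSpace ℝ ι) :
    ∫ x, cexp (inner ℝ x η * I) * G x = 0 := by
  obtain ⟨m, hm⟩ := exists_nat_gt (‖η‖ / k)
  have hm0 : (0 : ℝ) < m := lt_of_le_of_lt (by positivity) hm
  have h1 : ‖((m : ℝ)⁻¹ • η)‖ < k := by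
    rw [norm_smul, norm_inv, Real.norm_of_nonneg hm0.le, inv_mul_lt_iff₀ hm0]
    rw [div_lt_iff₀ hk] at hm
    exact hm
  have h2 := iter hG hp ((m : ℝ)⁻¹ • η) h1 m 1
  rw [← h2]
  congr 1
  funext x
  have h3 : cexp (inner ℝ x ((m : ℝ)⁻¹ • η) * I) ^ m = cexp (inner ℝ x η * I) := by
    rw [← Complex.exp_nat_mul]
    congr 1
    rw [inner_smul_right]
    have hm1 : (m : ℂ) ≠ 0 := by exact_mod_cast hm0.ne'
    push_cast
    rw [← mul_assoc, ← mul_assoc, mul_inv_cancel₀ hm1, one_mul]
  rw [h3]
  simp

/-- A real function with exponential decay (in the integrated sense) orthogonal to all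
polynomials vanishes almost everywhere. -/
theorem ae_eq_zero_of_forall_poly {F : EuclideanSpace ℝ ι → ℝ} {k : ℝ} (hk : 0 < k)
    (hF : Integrable (fun x => F x * Real.exp (k * ‖x‖)))
    (h : ∀ p : MvPolynomial ι ℝ, ∫ x, pev p x * F x = 0) :
    F =ᵐ[volume] 0 := by
  have hG : Integrable (fun x => (Real.exp (k * ‖x‖) : ℂ) * ((F x : ℝ) : ℂ)) := by
    have := hF.ofReal (𝕜 := ℂ)
    refine this.congr (Filter.Eventually.of_forall fun x => ?_)
    show ((F x * Real.exp (k * ‖x‖) : ℝ) : ℂ) = _
    rw [Complex.ofReal_mul, mul_comm]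
  have hp : ∀ p : MvPolynomial ι ℝ, ∫ x, (pev p x : ℂ) * ((F x : ℝ) : ℂ) = 0 := by
    intro p
    have h1 : (fun x => (pev p x : ℂ) * ((F x : ℝ) : ℂ)) =
        fun x => ((pev p x * F x : ℝ) : ℂ) := by
      funext x; push_cast; rfl
    rw [h1, integral_complex_ofReal, h p]
    simp
  have hchar := integral_char_eq_zero hk hG hp
  have hFm : AEStronglyMeasurable F volume := by
    have h1 : F = fun x => (F x * Real.exp (k * ‖x‖)) * Real.exp (-(k * ‖x‖)) := by
      funext x
      rw [mul_assoc, ← Real.exp_add]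
      simp
    rw [h1]
    refine hF.1.mul ?_
    exact (by fun_prop : Continuous fun x : EuclideanSpace ℝ ι =>
      Real.exp (-(k * ‖x‖))).aestronglyMeasurable
  have hFi : Integrable F volume := by
    refine Integrable.mono hF hFm (Filter.Eventually.of_forall fun x => ?_)
    rw [norm_mul, Real.norm_of_nonneg (Real.exp_pos _).le]
    exact le_mul_of_one_le_right (norm_nonneg _) (Real.one_le_exp (by positivity))
  -- positive and negative parts as measures
  set μp : Measure (EuclideanSpace ℝ ι) := volume.withDensity (fun x => ENNReal.ofReal (F x))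
    with hμp
  set μn : Measure (EuclideanSpace ℝ ι) := volume.withDensity (fun x => ENNReal.ofReal (-F x))
    with hμn
  have hFm1 : AEMeasurable (fun x => ENNReal.ofReal (F x)) volume := hFm.aemeasurable.ennreal_ofReal
  have hFm2 : AEMeasurable (fun x => ENNReal.ofReal (-F x)) volume :=
    hFm.aemeasurable.neg.ennreal_ofReal
  have hfp : IsFiniteMeasure μp := isFiniteMeasure_withDensity_ofReal hFi.2
  have hfn : IsFiniteMeasure μn := isFiniteMeasure_withDensity_ofReal hFi.neg.2
  have hcf : charFun μp = charFun μn := by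
    funext t
    rw [charFun_apply, charFun_apply, hμp, hμn]
    rw [integral_withDensity_eq_integral_toReal_smul₀ hFm1
        (Filter.Eventually.of_forall fun x => ENNReal.ofReal_lt_top),
      integral_withDensity_eq_integral_toReal_smul₀ hFm2
        (Filter.Eventually.of_forall fun x => ENNReal.ofReal_lt_top)]
    have hcm : ∀ s : ℝ, AEStronglyMeasurable (fun x : EuclideanSpace ℝ ι =>
        cexp (inner ℝ x t * I)) volume := fun _ =>
      (by fun_prop : Continuous fun x : EuclideanSpace ℝ ι =>
        cexp (inner ℝ x t * I)).aestronglyMeasurable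
    have hi1 : Integrable (fun x => (ENNReal.ofReal (F x)).toReal • cexp (inner ℝ x t * I)) := by
      refine Integrable.mono hFi ?_ (Filter.Eventually.of_forall fun x => ?_)
      · exact (hFm1.ennreal_toReal.aestronglyMeasurable).smul (hcm 0)
      · rw [norm_smul, Complex.norm_exp_ofReal_mul_I, mul_one, Real.norm_eq_abs, Real.norm_eq_abs,
          ENNReal.toReal_ofReal', abs_of_nonneg (le_max_right _ _)]
        exact max_le (le_abs_self _) (abs_nonneg _)
    have hi2 : Integrable (fun x => (ENNReal.ofReal (-F x)).toReal • cexp (inner ℝ x t * I)) := by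
      refine Integrable.mono hFi ?_ (Filter.Eventually.of_forall fun x => ?_)
      · exact (hFm2.ennreal_toReal.aestronglyMeasurable).smul (hcm 0)
      · rw [norm_smul, Complex.norm_exp_ofReal_mul_I, mul_one, Real.norm_eq_abs, Real.norm_eq_abs,
          ENNReal.toReal_ofReal', abs_of_nonneg (le_max_right _ _)]
        exact max_le (neg_le_abs _) (abs_nonneg _)
    rw [← sub_eq_zero, ← integral_sub hi1 hi2, ← hchar t]
    congr 1
    funext x
    rw [← sub_smul, ENNReal.toReal_ofReal', ENNReal.toReal_ofReal']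
    have : max (F x) 0 - max (-F x) 0 = F x := by
      rcases le_total 0 (F x) with h0 | h0
      · rw [max_eq_left h0, max_eq_right (by linarith)]; ring
      · rw [max_eq_right h0, max_eq_left (by linarith)]; ring
    rw [this, Complex.real_smul, mul_comm]
  have heq : μp = μn := Measure.ext_of_charFun hcf
  rw [hμp, hμn, withDensity_eq_iff hFm1 hFm2 ?_] at heq
  · filter_upwards [heq] with x hx
    have := congrArg ENNReal.toReal hx
    rw [ENNReal.toReal_ofReal', ENNReal.toReal_ofReal'] at this
    rcases le_total 0 (F x) with h0 | h0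
    · rw [max_eq_left h0, max_eq_right (by linarith)] at this; exact this
    · rw [max_eq_right h0, max_eq_left (by linarith)] at this
      simp only [Pi.zero_apply]; linarith
  · exact hFi.lintegral_lt_top.ne

end Vale.Agent.P363.H979
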